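import Vale.Agent.P157.Full.Deriv.Step
import Vale.Agent.P157.Parisi.ModA.Bridge
import Vale.Agent.P157.Parisi.ModA.Slope
import Vale.Agent.P157.Full.Defs

/-!
The time derivative of the recursion along a segment of paths.
-/

noncomputable section

open MeasureTheory ProbabilityTheory Filter Topology Set

namespace Vale.Agent.P157.Parisi.Full.Deriv

/-- Continuous and bounded. -/
def Bc (u : ℝ → ℝ) : Prop := Continuous u ∧ ∃ B, ∀ y, |u y| ≤ B

/-- The weights with a given mass below the root. -/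
def wts {r : ℕ} (M : ℝ) (m : Fin r → ℝ) (p : Fin (r + 1)) : ℝ :=
  (Fin.snoc m 1 : Fin (r + 1) → ℝ) p - (Fin.cons M m : Fin (r + 1) → ℝ) p

lemma wts_succ {r : ℕ} (M : ℝ) (m : Fin (r + 1) → ℝ) (p : Fin (r + 1)) :
    wts M m p.succ = wts (m 0) (Fin.tail m) p := by
  unfold wts
  rw [Fin.cons_succ, Fin.cons_self_tail]
  congr 1
  cases p using Fin.lastCases with
  | last => rw [Fin.succ_last, Fin.snoc_last, Fin.snoc_last]
  | cast j => rw [← Fin.castSucc_succ, Fin.snoc_castSucc, Fin.snoc_castSucc]; rfl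

variable {L m d B : ℝ} {δ : ℝ → ℝ} {F F1 F2 D : ℝ → ℝ → ℝ}

lemma Fam.bc1sq (hF : Fam L F F1 F2 D) (t : ℝ) : Bc fun y => F1 t y ^ 2 :=
  ⟨(hF.at_time t).2.1.pow 2, L ^ 2, fun y => by
    rw [abs_pow]; exact pow_le_pow_left₀ (abs_nonneg _) (hF.b1 t y) 2⟩

lemma Fam.bc_tilt (hF : Fam L F F1 F2 D) (hm : 0 ≤ m) (hδ : Continuous δ) (t : ℝ) {u : ℝ → ℝ}
    (hu : Bc u) : Bc (tilt m (δ t) (F t) u) := by
  obtain ⟨hc, B, hb⟩ := hu
  exact ⟨(hF.continuous_tl hm hδ (h := fun _ => u) (hc.comp continuous_snd) fun _ => hb).uncurry_left t,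
    B, fun y => hF.abs_tl_le (h := fun _ => u) hm hδ t y hc hb⟩

lemma Fam.integrable_bc (hF : Fam L F F1 F2 D) (hm : 0 ≤ m) (hδ : Continuous δ) (t x : ℝ)
    {u : ℝ → ℝ} (hu : Bc u) :
    Integrable (fun g => wgt m (δ t) (F t) x g * u (x + Real.sqrt (δ t) * g))
      (gaussianReal 0 1) := by
  obtain ⟨hc, B, hb⟩ := hu
  exact hF.integrable_mul hm hδ t x hc hb

lemma Fam.tilt_combine (hF : Fam L F F1 F2 D) (hm : 0 ≤ m) (hδ : Continuous δ) (t x a b c : ℝ)
    {n : ℕ} (w : Fin n → ℝ) {u : ℝ → ℝ} {v : Fin n → ℝ → ℝ} (hu : Bc u) (hv : ∀ i, Bc (v i)) :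
    tilt m (δ t) (F t) (fun y => a * u y + b * ∑ i, w i * v i y + c) x =
      a * tilt m (δ t) (F t) u x + b * ∑ i, w i * tilt m (δ t) (F t) (v i) x + c := by
  have hp := (hF.nrm_pos hm hδ t x).ne'
  have i1 := hF.integrable_bc hm hδ t x hu
  have i2 := fun i => hF.integrable_bc hm hδ t x (hv i)
  have i3 : Integrable (fun g => wgt m (δ t) (F t) x g) (gaussianReal 0 1) := by
    simpa using hF.integrable_bc hm hδ t x (u := fun _ => 1) ⟨continuous_const, 1, by simp⟩
  have e : ∀ g, wgt m (δ t) (F t) x g * (a * u (x + Real.sqrt (δ t) * g) +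
      b * ∑ i, w i * v i (x + Real.sqrt (δ t) * g) + c) =
      a * (wgt m (δ t) (F t) x g * u (x + Real.sqrt (δ t) * g)) +
        b * ∑ i, w i * (wgt m (δ t) (F t) x g * v i (x + Real.sqrt (δ t) * g)) +
          c * wgt m (δ t) (F t) x g := fun g => by
    have h : ∀ W u₀ S : ℝ, W * (a * u₀ + b * S + c) = a * (W * u₀) + b * (W * S) + c * W :=
      fun W u₀ S => by ring
    rw [h, Finset.mul_sum]
    congr 3
    exact Finset.sum_congr rfl fun i _ => mul_left_comm _ _ _
  have j2 : Integrable (fun g => b * ∑ i, w i *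
      (wgt m (δ t) (F t) x g * v i (x + Real.sqrt (δ t) * g))) (gaussianReal 0 1) :=
    (integrable_finsetSum _ fun i _ => (i2 i).const_mul (w i)).const_mul b
  simp only [tilt_eq, e]
  rw [integral_add ((i1.const_mul a).fun_add j2) (i3.const_mul c), integral_add (i1.const_mul a) j2,
    integral_const_mul, integral_const_mul, integral_const_mul,
    integral_finsetSum _ fun i _ => (i2 i).const_mul (w i)]
  simp only [integral_const_mul, mul_div, ← Finset.sum_div, nrm] at hp ⊢
  field_simp [hp]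

/-- The function averaged for the slope at depth `p`. -/
def sq {r : ℕ} (m : Fin r → ℝ) (Q : Fin (r + 1) → ℝ) (φ : ℝ → ℝ) (p : Fin (r + 1)) : ℝ → ℝ :=
  down m Q φ p fun y => deriv (level m Q φ p) y ^ 2

/-- The recursion along a segment. -/
theorem rec_segment {L : ℝ} {φ T1 T2 Dt : ℝ → ℝ → ℝ} (hφ : Fam L φ T1 T2 Dt) {κ : ℝ} :
    ∀ {r : ℕ} {m : Fin r → ℝ}, (∀ i, 0 < m i) → ∀ (Q : ℝ → Fin (r + 1) → ℝ)
      (e : Fin (r + 1) → ℝ),
      (∀ p : Fin r, Inc (fun t => Q t p.succ - Q t p.castSucc) (e p.succ - e p.castSucc)) →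
      (∀ t ∈ J, ∀ x, Dt t x + e (Fin.last r) / 2 * (T2 t x + T1 t x ^ 2) = κ) →
      ∃ L' G1 G2 D0, Fam L' (fun t x => level m (Q t) (φ t) 0 x) G1 G2 D0 ∧
        (∀ t p, Bc (sq m (Q t) (φ t) p)) ∧
        ∀ t ∈ J, ∀ x M, D0 t x = -(1 / 2) * e 0 * (G2 t x + M * G1 t x ^ 2) -
          1 / 2 * ∑ p, wts M m p * e p * sq m (Q t) (φ t) p x + κ := by
  intro r
  induction r with
  | zero =>
    intro m _ Q e _ hκ
    have hd : ∀ t, deriv (φ t) = T1 t := fun t => funext fun y => (hφ.d1 t y).deriv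
    refine ⟨L, T1, T2, Dt, hφ, fun t p => ?_, fun t ht x M => ?_⟩
    · show Bc fun y => deriv (φ t) y ^ 2
      rw [hd]; exact hφ.bc1sq t
    · have h := hκ t ht x
      have hs : sq m (Q t) (φ t) (0 : Fin 1) x = T1 t x ^ 2 := by
        show deriv (φ t) x ^ 2 = _
        rw [hd]
      have hw : wts M m (0 : Fin 1) = 1 - M := by simp [wts, Fin.snoc]
      rw [Fin.sum_univ_one, hs, hw]
      rw [show (Fin.last 0 : Fin 1) = 0 from rfl] at h
      linarith
  | succ r ih =>
    intro m hm Q e hi hκ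
    obtain ⟨L₁, G1, G2, D1, hG, hbc, hD⟩ := ih (m := Fin.tail m) (fun i => hm i.succ)
      (fun t => Fin.tail (Q t)) (Fin.tail e)
      (fun p => by simpa [Fin.tail, Fin.castSucc_succ] using hi p.succ)
      (fun t ht x => by simpa [Fin.tail, Fin.succ_last] using hκ t ht x)
    have h0 : Inc (fun t => Q t 1 - Q t 0) (e 1 - e 0) := by
      simpa [Fin.succ_zero_eq_one] using hi 0
    obtain ⟨L', hS⟩ := hG.step (hm 0) h0
    refine ⟨L', _, _, _, hS, fun t p => ?_, fun t ht x M => ?_⟩
    · cases p using Fin.cases with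
      | zero =>
        show Bc fun y => deriv (level m (Q t) (φ t) 0) y ^ 2
        have hd : deriv (level m (Q t) (φ t) 0) =
            tl (m 0) (fun t => Q t 1 - Q t 0)
              (fun t x => level (Fin.tail m) (Fin.tail (Q t)) (φ t) 0 x) G1 t :=
          funext fun y => (hS.d1 t y).deriv
        rw [hd]; exact hS.bc1sq t
      | succ p => exact hG.bc_tilt (hm 0).le h0.cont t (hbc t p)
    · set Fl := fun t x => level (Fin.tail m) (Fin.tail (Q t)) (φ t) 0 x
      set δ := fun t => Q t 1 - Q t 0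
      set U := fun s y => G2 s y + m 0 * G1 s y ^ 2
      have hU : Bc (U t) := ⟨(hG.at_time t).2.2.add (continuous_const.mul ((hG.at_time t).2.1.pow 2)),
        L₁ + |m 0| * L₁ ^ 2, fun y => (abs_add_le _ _).trans (add_le_add (hG.b2 t y) (by
          rw [abs_mul, abs_pow]
          exact mul_le_mul_of_nonneg_left (pow_le_pow_left₀ (abs_nonneg _) (hG.b1 t y) 2)
            (abs_nonneg _)))⟩
      have key : tl (m 0) δ Fl (fun s y => D1 s y + (e 1 - e 0) / 2 * U s y) t x =
          tilt (m 0) (δ t) (Fl t) (fun y => (-(1 / 2) * e 0) * U t y + (-(1 / 2)) *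
            ∑ p, (wts (m 0) (Fin.tail m) p * Fin.tail e p) *
              sq (Fin.tail m) (Fin.tail (Q t)) (φ t) p y + κ) x := by
        show tilt _ _ _ (fun y => D1 t y + (e 1 - e 0) / 2 * U t y) x = _
        congr 1
        funext y
        rw [hD t ht y (m 0)]
        simp only [U, Fin.tail, Fin.succ_zero_eq_one]
        ring
      show tl (m 0) δ Fl (fun s y => D1 s y + (e 1 - e 0) / 2 * U s y) t x = _
      rw [Fin.sum_univ_succ (f := fun p => wts M m p * e p * sq m (Q t) (φ t) p x), key,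
        hG.tilt_combine (hm 0).le h0.cont t x _ _ _ _ hU (hbc t)]
      have e0 : sq m (Q t) (φ t) 0 x = tl (m 0) δ Fl G1 t x ^ 2 := by
        show deriv (level m (Q t) (φ t) 0) x ^ 2 = _
        rw [show deriv (level m (Q t) (φ t) 0) x = tl (m 0) δ Fl G1 t x from (hS.d1 t x).deriv]
      have ew : wts M m 0 = m 0 - M := by
        unfold wts
        rw [Fin.cons_zero, ← Fin.castSucc_zero, Fin.snoc_castSucc]
      have es : ∀ p : Fin (r + 1), wts M m p.succ * e p.succ * sq m (Q t) (φ t) p.succ x =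
          wts (m 0) (Fin.tail m) p * Fin.tail e p *
            tilt (m 0) (δ t) (Fl t) (sq (Fin.tail m) (Fin.tail (Q t)) (φ t) p) x := fun p => by
        rw [wts_succ]; rfl
      simp only [e0, ew, es, tl]
      ring

/-- The value at the root. -/
def root (m : ℝ → ℝ → ℝ) (q : ℝ → ℝ) (t : ℝ) : ℝ :=
  ∫ g, m t (Real.sqrt (q t) * g) ∂gaussianReal 0 1

lemma Fam.root_near (hF : Fam L F F1 F2 D) (hδ : Continuous δ) (t₀ : ℝ) :
    ∀ᶠ t in 𝓝 t₀, ∀ g,
      |F t (Real.sqrt (δ t) * g)| ≤ (|F t₀ 0| + 1) + L * (Real.sqrt (δ t₀) + 1) * |g| := by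
  have e1 : ∀ᶠ t in 𝓝 t₀, |F t 0| < |F t₀ 0| + 1 :=
    ((continuous_abs.comp (hF.c0.comp (continuous_id.prodMk continuous_const))).tendsto
      t₀).eventually_lt_const (lt_add_one _)
  have e2 : ∀ᶠ t in 𝓝 t₀, Real.sqrt (δ t) < Real.sqrt (δ t₀) + 1 :=
    ((Real.continuous_sqrt.comp hδ).tendsto t₀).eventually_lt_const (lt_add_one _)
  filter_upwards [e1, e2] with t h1 h2 g
  refine (hF.grow t _).trans (add_le_add h1.le ?_)
  rw [abs_mul, abs_of_nonneg (Real.sqrt_nonneg _), mul_assoc]
  exact mul_le_mul_of_nonneg_left (mul_le_mul_of_nonneg_right h2.le (abs_nonneg _)) hF.nn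

lemma integrable_affine_abs (a b : ℝ) : Integrable (fun g => a + b * |g|) (gaussianReal 0 1) :=
  (integrable_const a).add
    (((memLp_id_gaussianReal (μ := 0) (v := 1) 1).integrable le_rfl).abs.const_mul b)

lemma Fam.continuous_root (hF : Fam L F F1 F2 D) (hδ : Continuous δ) : Continuous (root F δ) :=
  continuous_iff_continuousAt.2 fun t₀ => continuousAt_of_dominated
    (bound := fun g => (|F t₀ 0| + 1) + L * (Real.sqrt (δ t₀) + 1) * |g|)
    (Eventually.of_forall fun s =>
      ((hF.at_time s).1.comp (continuous_const.mul continuous_id)).aestronglyMeasurable)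
    ((hF.root_near hδ t₀).mono fun _ h => Eventually.of_forall h)
    (integrable_affine_abs _ _)
    (Eventually.of_forall fun _ =>
      (hF.c0.comp (continuous_id.prodMk
        ((Real.continuous_sqrt.comp hδ).mul continuous_const))).continuousAt)

lemma Fam.hasDerivAt_root (hF : Fam L F F1 F2 D) (hi : Inc δ d) {t : ℝ} (ht : t ∈ J) :
    HasDerivAt (root F δ)
      (∫ g, (D t (Real.sqrt (δ t) * g) + d / 2 * F2 t (Real.sqrt (δ t) * g))
        ∂gaussianReal 0 1) t := by
  set s' : ℝ → ℝ := fun s => d / (2 * Real.sqrt (δ s))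
  set S := |s' t| + 1
  have hs : ∀ᶠ s in 𝓝 t, s ∈ J ∧ |s' s| < S :=
    Filter.Eventually.and (isOpen_Ioo.mem_nhds ht)
      (((hi.speed.continuousAt (isOpen_Ioo.mem_nhds ht)).abs.tendsto).eventually_lt_const
        (lt_add_one _))
  have hS0 : 0 ≤ S := by positivity
  have hDt : Continuous (D t) :=
    hF.cD.comp_continuous (continuous_const.prodMk continuous_id) fun y => ⟨ht, mem_univ y⟩
  have h1c := (hF.at_time t).2.1
  have h2c := (hF.at_time t).2.2
  obtain ⟨-, hI⟩ := hasDerivAt_integral_of_dominated_loc_of_deriv_le (μ := gaussianReal 0 1)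
    (x₀ := t) (F := fun s g => F s (Real.sqrt (δ s) * g))
    (F' := fun s g => D s (Real.sqrt (δ s) * g) + F1 s (Real.sqrt (δ s) * g) * (s' s * g))
    (bound := fun g => L + L * S * |g|) hs
    (Eventually.of_forall fun s =>
      ((hF.at_time s).1.comp (continuous_const.mul continuous_id)).aestronglyMeasurable)
    ((integrable_affine_abs (|F t 0| + 1) (L * (Real.sqrt (δ t) + 1))).mono'
      ((hF.at_time t).1.comp (continuous_const.mul continuous_id)).aestronglyMeasurable
      (Eventually.of_forall (hF.root_near hi.cont t).self_of_nhds))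
    (Continuous.aestronglyMeasurable (by fun_prop))
    (Eventually.of_forall fun g s ⟨hsJ, hsS⟩ => by
      rw [Real.norm_eq_abs]
      refine (abs_add_le _ _).trans (add_le_add (hF.bD s hsJ _) ?_)
      rw [abs_mul, abs_mul, mul_assoc]
      exact mul_le_mul (hF.b1 _ _) (mul_le_mul_of_nonneg_right hsS.le (abs_nonneg _))
        (by positivity) hF.nn)
    (integrable_affine_abs _ _)
    (Eventually.of_forall fun g s ⟨hsJ, _⟩ =>
      hF.hasDerivAt_curve hsJ ((hi.root s hsJ).1.mul_const g))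
  refine hI.congr_deriv ?_
  set r := Real.sqrt (δ t)
  have hd : ∀ g, HasDerivAt (fun z => F1 t (r * z)) (r * F2 t (r * g)) g := fun g => by
    have hy : HasDerivAt (fun z => r * z) r g := by simpa using (hasDerivAt_id g).const_mul r
    exact ((hF.d2 t _).comp g hy).congr_deriv (mul_comm _ _)
  have hibp := integral_id_mul_gaussian hd (fun g => hF.b1 t _) (A' := |r| * L) (fun g => by
    rw [abs_mul]; exact mul_le_mul_of_nonneg_left (hF.b2 t _) (abs_nonneg _))
  have iD : Integrable (fun g => D t (r * g)) (gaussianReal 0 1) :=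
    Integrable.of_bound (hDt.comp (continuous_const.mul continuous_id)).aestronglyMeasurable L
      (Eventually.of_forall fun g => hF.bD t ht _)
  have i2 : Integrable (fun g => F2 t (r * g)) (gaussianReal 0 1) :=
    Integrable.of_bound (h2c.comp (continuous_const.mul continuous_id)).aestronglyMeasurable L
      (Eventually.of_forall fun g => hF.b2 t _)
  have i1 : Integrable (fun g => g * F1 t (r * g)) (gaussianReal 0 1) :=
    (integrable_affine_abs 0 L).mono'
      (continuous_id.mul (h1c.comp (continuous_const.mul continuous_id))).aestronglyMeasurable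
      (Eventually.of_forall fun g => by
        rw [Real.norm_eq_abs, abs_mul, zero_add, mul_comm L]
        exact mul_le_mul_of_nonneg_left (hF.b1 t _) (abs_nonneg _))
  have e : ∀ g, F1 t (r * g) * (s' t * g) = s' t * (g * F1 t (r * g)) := fun g => by ring
  simp only [e]
  rw [integral_add iD (i1.const_mul _), integral_add iD (i2.const_mul _), integral_const_mul,
    integral_const_mul, hibp, integral_const_mul, ← mul_assoc (s' t),
    show s' t * r = d / 2 by rw [mul_comm]; exact (hi.root t ht).2]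

/-- The increment of the value along a segment. -/
theorem segment_value {L : ℝ} {φ T1 T2 Dt : ℝ → ℝ → ℝ} (hφ : Fam L φ T1 T2 Dt) {κ : ℝ} {r : ℕ}
    {m : Fin r → ℝ} (hm : ∀ i, 0 < m i) {q q' : Fin (r + 1) → ℝ} (hq : Monotone q)
    (hq' : Monotone q') (h0 : 0 ≤ q 0) (h0' : 0 ≤ q' 0)
    (hκ : ∀ t ∈ J, ∀ x,
      Dt t x + (q' (Fin.last r) - q (Fin.last r)) / 2 * (T2 t x + T1 t x ^ 2) = κ) :
    ∃ t ∈ J, root (fun s x => level m (seg q q' s) (φ s) 0 x) (fun s => seg q q' s 0) 1 -
      root (fun s x => level m (seg q q' s) (φ s) 0 x) (fun s => seg q q' s 0) 0 =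
      -(1 / 2) * ∑ p, weight m p *
        (∫ g, sq m (seg q q' t) (φ t) p (Real.sqrt (seg q q' t 0) * g) ∂gaussianReal 0 1) *
          (q' p - q p) + κ := by
  set e := fun p => q' p - q p
  have hinc : ∀ p : Fin r,
      Inc (fun t => seg q q' t p.succ - seg q q' t p.castSucc) (e p.succ - e p.castSucc) := by
    intro p
    have h := inc_segment (sub_nonneg.2 (hq (Fin.castSucc_le_succ p)))
      (sub_nonneg.2 (hq' (Fin.castSucc_le_succ p)))
    convert h using 1
    · funext t; simp only [seg]; ring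
    · simp only [e]; ring
  have hroot : Inc (fun t => seg q q' t 0) (e 0) := inc_segment h0 h0'
  obtain ⟨L', G1, G2, D0, hG, hbc, hD⟩ := rec_segment hφ hm (seg q q') e hinc hκ
  set F := fun s x => level m (seg q q' s) (φ s) 0 x
  have hder : ∀ t ∈ Ioo (0 : ℝ) 1, HasDerivAt (root F fun s => seg q q' s 0)
      (-(1 / 2) * ∑ p, weight m p *
        (∫ g, sq m (seg q q' t) (φ t) p (Real.sqrt (seg q q' t 0) * g) ∂gaussianReal 0 1) *
          (q' p - q p) + κ) t := by
    intro t ht
    refine (hG.hasDerivAt_root hroot ht).congr_deriv ?_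
    set r₀ := Real.sqrt (seg q q' t 0)
    have ei : ∀ g, D0 t (r₀ * g) + e 0 / 2 * G2 t (r₀ * g) =
        -(1 / 2) * ∑ p, weight m p * sq m (seg q q' t) (φ t) p (r₀ * g) * e p + κ := fun g => by
      rw [hD t ht _ 0, show ∑ p, wts 0 m p * e p * sq m (seg q q' t) (φ t) p (r₀ * g) =
        ∑ p, weight m p * sq m (seg q q' t) (φ t) p (r₀ * g) * e p from
          Finset.sum_congr rfl fun p _ => mul_right_comm _ _ _]
      ring
    have hi : ∀ p, Integrable (fun g => sq m (seg q q' t) (φ t) p (r₀ * g)) (gaussianReal 0 1) :=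
      fun p => by
        obtain ⟨hc, B, hb⟩ := hbc t p
        exact Integrable.of_bound (hc.comp (continuous_const.mul continuous_id)).aestronglyMeasurable
          B (Eventually.of_forall fun g => hb _)
    have hi' : ∀ p ∈ Finset.univ, Integrable
        (fun g => weight m p * sq m (seg q q' t) (φ t) p (r₀ * g) * e p) (gaussianReal 0 1) :=
      fun p _ => ((hi p).const_mul _).mul_const _
    simp only [ei]
    rw [integral_add ((integrable_finsetSum _ hi').const_mul _) (integrable_const _),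
      integral_const_mul, integral_finsetSum _ hi']
    simp only [integral_mul_const, integral_const_mul, integral_const, probReal_univ, one_smul, e]
  obtain ⟨t, ht, heq⟩ := exists_hasDerivAt_eq_slope (root F fun s => seg q q' s 0) _ zero_lt_one
    (hG.continuous_root hroot.cont).continuousOn hder
  exact ⟨t, ht, by rw [heq, sub_zero, div_one]⟩

end Vale.Agent.P157.Parisi.Full.Deriv
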