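import Vale.Agent.P157.Parisi.ModA.Layer
import Vale.Agent.P157.Parisi.Site.Levels
import Vale.Agent.P157.Stein

/-!
A family of terminal functions with bounded slope depending on a time, and one step of the
recursion applied to it: derivatives in the field and in the time.
-/

noncomputable section

open MeasureTheory ProbabilityTheory Filter Topology Set

namespace Vale.Agent.P157.Parisi.Full.Deriv

/-- Times in the open unit interval. -/
abbrev J : Set ℝ := Ioo 0 1

/-- A family of functions of linear growth, with two derivatives in the field and one in time. -/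
structure Fam (L : ℝ) (F F1 F2 D : ℝ → ℝ → ℝ) : Prop where
  nn : 0 ≤ L
  c0 : Continuous (Function.uncurry F)
  c1 : Continuous (Function.uncurry F1)
  c2 : Continuous (Function.uncurry F2)
  cD : ContinuousOn (Function.uncurry D) (J ×ˢ univ)
  d1 : ∀ t x, HasDerivAt (F t) (F1 t x) x
  d2 : ∀ t x, HasDerivAt (F1 t) (F2 t x) x
  dt : ∀ t ∈ J, ∀ x, HasDerivAt (fun s => F s x) (D t x) t
  b1 : ∀ t x, |F1 t x| ≤ L
  b2 : ∀ t x, |F2 t x| ≤ L
  bD : ∀ t ∈ J, ∀ x, |D t x| ≤ L

/-- An increment moving with constant speed on the open interval. -/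
structure Inc (δ : ℝ → ℝ) (d : ℝ) : Prop where
  cont : Continuous δ
  root : ∀ t ∈ J, HasDerivAt (fun s => Real.sqrt (δ s)) (d / (2 * Real.sqrt (δ t))) t ∧
    Real.sqrt (δ t) * (d / (2 * Real.sqrt (δ t))) = d / 2
  speed : ContinuousOn (fun t => d / (2 * Real.sqrt (δ t))) J

lemma inc_segment {a b : ℝ} (ha : 0 ≤ a) (hb : 0 ≤ b) :
    Inc (fun t => (1 - t) * a + t * b) (b - a) := by
  by_cases h : a = 0 ∧ b = 0
  · obtain ⟨rfl, rfl⟩ := h
    refine ⟨by fun_prop, fun t _ => ⟨?_, by simp⟩, by simp [continuousOn_const]⟩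
    simpa using hasDerivAt_const t (0 : ℝ)
  · have hpos : ∀ t ∈ J, 0 < (1 - t) * a + t * b := fun t ht => by
      rcases not_and_or.1 h with h | h
      · have := lt_of_le_of_ne ha (Ne.symm h)
        nlinarith [ht.1, ht.2]
      · have := lt_of_le_of_ne hb (Ne.symm h)
        nlinarith [ht.1, ht.2]
    refine ⟨by fun_prop, fun t ht => ⟨?_, ?_⟩, ?_⟩
    · have hl : HasDerivAt (fun s => (1 - s) * a + s * b) (b - a) t :=
        ((((hasDerivAt_id t).const_sub 1).mul_const a).add
          ((hasDerivAt_id t).mul_const b)).congr_deriv (by ring)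
      exact hl.sqrt (hpos t ht).ne'
    · have := (Real.sqrt_pos.2 (hpos t ht)).ne'
      field_simp
    · refine continuousOn_const.div (by fun_prop) fun t ht => ?_
      have := Real.sqrt_pos.2 (hpos t ht)
      positivity

lemma abs_le_exp_abs (g : ℝ) : |g| ≤ Real.exp |g| :=
  (le_add_of_nonneg_right zero_le_one).trans (Real.add_one_le_exp _)

/-- Gaussian integration by parts for functions of exponential growth. -/
lemma ibp {φ φ' : ℝ → ℝ} {K c : ℝ} (hd : ∀ x, HasDerivAt φ (φ' x) x) (hc : Continuous φ')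
    (hb : ∀ x, |φ x| ≤ K * Real.exp (c * |x|)) (hb' : ∀ x, |φ' x| ≤ K * Real.exp (c * |x|)) :
    ∫ x, x * φ x ∂gaussianReal 0 1 = ∫ x, φ' x ∂gaussianReal 0 1 := by
  have hfc : Continuous φ := continuous_iff_continuousAt.mpr fun x => (hd x).continuousAt
  have hK : 0 ≤ K := by simpa using (abs_nonneg _).trans (hb 0)
  have up : ∀ x : ℝ, K * Real.exp (c * |x|) ≤ K * Real.exp ((c + 1) * |x|) := fun x => by
    gcongr; linarith [abs_nonneg x]
  have int : ∀ u : ℝ → ℝ, Continuous u → (∀ x, |u x| ≤ K * Real.exp ((c + 1) * |x|)) →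
      Integrable (fun x => gaussianPDFReal 0 1 x * u x) := by
    intro u hu hub
    have h : Integrable u (gaussianReal 0 1) :=
      ((Site.integrable_exp_abs (c + 1)).const_mul K).mono' hu.aestronglyMeasurable
        (Eventually.of_forall hub)
    rw [gaussianReal_of_var_ne_zero _ one_ne_zero,
      integrable_withDensity_iff_integrable_smul' (measurable_gaussianPDF 0 1)
        (Eventually.of_forall fun _ => gaussianPDF_lt_top)] at h
    simpa [toReal_gaussianPDF] using h
  have i1 := int (fun x => x * φ x) (by fun_prop) fun x => by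
    rw [abs_mul, add_mul, one_mul, Real.exp_add, ← mul_assoc, mul_comm |x|]
    exact mul_le_mul (hb x) (abs_le_exp_abs x) (abs_nonneg _) (by positivity)
  have i2 := int φ' hc fun x => (hb' x).trans (up x)
  have i3 := int φ hfc fun x => (hb x).trans (up x)
  have h := integral_mul_deriv_eq_deriv_mul_of_integrable (u := φ)
    (v := fun x => -gaussianPDFReal 0 1 x) (u' := φ') (v' := fun x => x * gaussianPDFReal 0 1 x)
    (fun x _ => hd x) (fun x _ => hasDerivAt_gaussianPDFReal x)
    (i1.congr (Eventually.of_forall fun x => by simp [Pi.mul_apply]; ring))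
    (i2.neg.congr (Eventually.of_forall fun x => by simp [Pi.mul_apply]; ring))
    (i3.neg.congr (Eventually.of_forall fun x => by simp [Pi.mul_apply]; ring))
  simp only [integral_gaussianReal_eq_integral_smul one_ne_zero, smul_eq_mul]
  simp only [mul_neg, integral_neg, neg_neg] at h
  exact ((integral_congr_ae (Eventually.of_forall fun x => by ring)).trans h).trans
    (integral_congr_ae (Eventually.of_forall fun x => by ring))

/-- The unnormalised mean of one step. -/
def num (m : ℝ) (δ : ℝ → ℝ) (F h : ℝ → ℝ → ℝ) (t x : ℝ) : ℝ :=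
  ∫ g, wgt m (δ t) (F t) x g * h t (x + Real.sqrt (δ t) * g) ∂gaussianReal 0 1

/-- The normalised mean of one step. -/
def tl (m : ℝ) (δ : ℝ → ℝ) (F h : ℝ → ℝ → ℝ) (t x : ℝ) : ℝ := tilt m (δ t) (F t) (h t) x

/-- The normalisation. -/
def nrm (m : ℝ) (δ : ℝ → ℝ) (F : ℝ → ℝ → ℝ) (t x : ℝ) : ℝ :=
  ∫ g, wgt m (δ t) (F t) x g ∂gaussianReal 0 1

lemma num_one (m : ℝ) (δ : ℝ → ℝ) (F : ℝ → ℝ → ℝ) :
    num m δ F (fun _ _ => 1) = nrm m δ F := by
  funext t x; simp [num, nrm]

lemma tl_eq (m : ℝ) (δ : ℝ → ℝ) (F h : ℝ → ℝ → ℝ) (t x : ℝ) :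
    tl m δ F h t x = num m δ F h t x / nrm m δ F t x := rfl

variable {L m d B : ℝ} {δ : ℝ → ℝ} {F F1 F2 D h h1 : ℝ → ℝ → ℝ}

lemma Fam.at_time (hF : Fam L F F1 F2 D) (t : ℝ) :
    Continuous (F t) ∧ Continuous (F1 t) ∧ Continuous (F2 t) :=
  ⟨hF.c0.uncurry_left t, hF.c1.uncurry_left t, hF.c2.uncurry_left t⟩

lemma Fam.grow (hF : Fam L F F1 F2 D) (t x : ℝ) : |F t x| ≤ |F t 0| + L * |x| := by
  have := convex_univ.norm_image_sub_le_of_norm_hasDerivWithin_le
    (fun y _ => (hF.d1 t y).hasDerivWithinAt) (fun y _ => hF.b1 t y) (mem_univ 0) (mem_univ x)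
  rw [Real.norm_eq_abs, Real.norm_eq_abs, sub_zero] at this
  linarith [abs_sub_abs_le_abs_sub (F t x) (F t 0)]

/-- The weights near a point are dominated by an exponential. -/
lemma Fam.locBound (hF : Fam L F F1 F2 D) (hm : 0 ≤ m) (hδ : Continuous δ) (t₀ x₀ : ℝ) :
    ∃ K c : ℝ, 0 ≤ K ∧ 0 ≤ c ∧
      ∀ᶠ p : ℝ × ℝ in 𝓝 (t₀, x₀), ∀ g, wgt m (δ p.1) (F p.1) p.2 g ≤ K * Real.exp (c * |g|) := by
  set S := Real.sqrt (δ t₀) + 1
  set U := |F t₀ 0| + 1
  set X := |x₀| + 1
  have hL := hF.nn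
  refine ⟨Real.exp (m * (U + L * X)), m * L * S, (Real.exp_pos _).le,
    mul_nonneg (mul_nonneg hm hL) (by positivity), ?_⟩
  have e1 : ∀ᶠ p : ℝ × ℝ in 𝓝 (t₀, x₀), Real.sqrt (δ p.1) < S :=
    ((Real.continuous_sqrt.comp (hδ.comp continuous_fst)).tendsto (t₀, x₀)).eventually_lt_const
      (lt_add_one _)
  have e2 : ∀ᶠ p : ℝ × ℝ in 𝓝 (t₀, x₀), |F p.1 0| < U :=
    ((continuous_abs.comp (hF.c0.comp (continuous_fst.prodMk continuous_const))).tendsto
      (t₀, x₀)).eventually_lt_const (lt_add_one _)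
  have e3 : ∀ᶠ p : ℝ × ℝ in 𝓝 (t₀, x₀), |p.2| < X :=
    ((continuous_abs.comp continuous_snd).tendsto (t₀, x₀)).eventually_lt_const (lt_add_one _)
  filter_upwards [e1, e2, e3] with p h1 h2 h3 g
  rw [wgt, ← Real.exp_add]
  refine Real.exp_le_exp.2 ?_
  have hy : |p.2 + Real.sqrt (δ p.1) * g| ≤ X + S * |g| := by
    refine (abs_add_le _ _).trans (add_le_add h3.le ?_)
    rw [abs_mul, abs_of_nonneg (Real.sqrt_nonneg _)]
    exact mul_le_mul_of_nonneg_right h1.le (abs_nonneg _)
  have := mul_le_mul_of_nonneg_left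
    ((le_abs_self _).trans ((hF.grow p.1 _).trans
      (add_le_add h2.le (mul_le_mul_of_nonneg_left hy hL)))) hm
  exact this.trans_eq (by ring)

lemma Fam.ptBound (hF : Fam L F F1 F2 D) (hm : 0 ≤ m) (hδ : Continuous δ) (t x : ℝ) :
    ∃ K c : ℝ, 0 ≤ K ∧ 0 ≤ c ∧ ∀ g, wgt m (δ t) (F t) x g ≤ K * Real.exp (c * |g|) := by
  obtain ⟨K, c, hK, hc, h⟩ := hF.locBound hm hδ t x
  exact ⟨K, c, hK, hc, h.self_of_nhds⟩

lemma Fam.cont_wgt (hF : Fam L F F1 F2 D) (m δ t x : ℝ) : Continuous (wgt m δ (F t) x) :=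
  (continuous_const.mul ((hF.at_time t).1.comp
    (continuous_const.add (continuous_const.mul continuous_id)))).rexp

lemma Fam.cont_wgt_mul (hF : Fam L F F1 F2 D) (m δ t x : ℝ) {u : ℝ → ℝ} (hu : Continuous u) :
    Continuous fun g => wgt m δ (F t) x g * u (x + Real.sqrt δ * g) :=
  (hF.cont_wgt m δ t x).mul (hu.comp (continuous_const.add (continuous_const.mul continuous_id)))

lemma abs_wgt_mul {u : ℝ → ℝ} (hu : ∀ y, |u y| ≤ B) {K c : ℝ} {φ : ℝ → ℝ} {x δ₀ g : ℝ}
    (hw : wgt m δ₀ φ x g ≤ K * Real.exp (c * |g|)) :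
    |wgt m δ₀ φ x g * u (x + Real.sqrt δ₀ * g)| ≤ B * K * Real.exp (c * |g|) := by
  have h0 : 0 ≤ wgt m δ₀ φ x g := (Real.exp_pos _).le
  have hB : 0 ≤ B := (abs_nonneg _).trans (hu 0)
  rw [abs_mul, abs_of_nonneg h0, mul_assoc, mul_comm B]
  exact mul_le_mul hw (hu _) (abs_nonneg _) (h0.trans hw)

lemma Fam.integrable_mul (hF : Fam L F F1 F2 D) (hm : 0 ≤ m) (hδ : Continuous δ) (t x : ℝ)
    {u : ℝ → ℝ} (hu : Continuous u) (hub : ∀ y, |u y| ≤ B) :
    Integrable (fun g => wgt m (δ t) (F t) x g * u (x + Real.sqrt (δ t) * g))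
      (gaussianReal 0 1) := by
  obtain ⟨K, c, -, -, hw⟩ := hF.ptBound hm hδ t x
  exact ((Site.integrable_exp_abs c).const_mul (B * K)).mono'
    (hF.cont_wgt_mul m _ t x hu).aestronglyMeasurable
    (Eventually.of_forall fun g => abs_wgt_mul hub (hw g))

lemma Fam.nrm_pos (hF : Fam L F F1 F2 D) (hm : 0 ≤ m) (hδ : Continuous δ) (t x : ℝ) :
    0 < nrm m δ F t x := by
  have h := hF.integrable_mul hm hδ t x (u := fun _ => 1) continuous_const (B := 1) (by simp)
  simp only [mul_one] at h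
  exact integral_exp_pos h

/-- A mean of one step is continuous. -/
lemma Fam.continuousAt_num (hF : Fam L F F1 F2 D) (hm : 0 ≤ m) (hδ : Continuous δ) {U : Set ℝ}
    (hU : IsOpen U) (hc : ContinuousOn (Function.uncurry h) (U ×ˢ univ))
    (hb : ∀ t ∈ U, ∀ y, |h t y| ≤ B) {t x : ℝ} (ht : t ∈ U) :
    ContinuousAt (Function.uncurry (num m δ F h)) (t, x) := by
  obtain ⟨K, c, -, -, hw⟩ := hF.locBound hm hδ t x
  have hUp : ∀ᶠ p : ℝ × ℝ in 𝓝 (t, x), p.1 ∈ U :=
    (continuous_fst.tendsto (t, x)).eventually (hU.mem_nhds ht)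
  have hht : ∀ s ∈ U, Continuous (h s) := fun s hs =>
    hc.comp_continuous (continuous_const.prodMk continuous_id) fun y => ⟨hs, mem_univ y⟩
  refine continuousAt_of_dominated (bound := fun g => B * K * Real.exp (c * |g|)) ?_ ?_
    ((Site.integrable_exp_abs c).const_mul _) (Eventually.of_forall fun g => ?_)
  · filter_upwards [hUp] with p hp
    exact (hF.cont_wgt_mul m _ p.1 p.2 (hht _ hp)).aestronglyMeasurable
  · filter_upwards [hUp, hw] with p hp hpw
    exact Eventually.of_forall fun g => abs_wgt_mul (hb _ hp) (hpw g)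
  · set γ : ℝ × ℝ → ℝ × ℝ := fun p => (p.1, p.2 + Real.sqrt (δ p.1) * g)
    have hγ : Continuous γ := continuous_fst.prodMk
      (continuous_snd.add ((Real.continuous_sqrt.comp (hδ.comp continuous_fst)).mul continuous_const))
    have h1 : ContinuousAt (fun p => Function.uncurry h (γ p)) (t, x) :=
      (hc.continuousAt ((hU.prod isOpen_univ).mem_nhds ⟨ht, mem_univ _⟩)).comp (f := γ)
        hγ.continuousAt
    exact ((continuous_const.mul (hF.c0.comp hγ)).rexp.continuousAt).mul h1

lemma Fam.continuous_num (hF : Fam L F F1 F2 D) (hm : 0 ≤ m) (hδ : Continuous δ)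
    (hc : Continuous (Function.uncurry h)) (hb : ∀ t y, |h t y| ≤ B) :
    Continuous (Function.uncurry (num m δ F h)) :=
  continuous_iff_continuousAt.2 fun p =>
    hF.continuousAt_num hm hδ isOpen_univ hc.continuousOn (fun t _ => hb t) (mem_univ p.1)

lemma Fam.continuous_nrm (hF : Fam L F F1 F2 D) (hm : 0 ≤ m) (hδ : Continuous δ) :
    Continuous (Function.uncurry (nrm m δ F)) :=
  num_one m δ F ▸ hF.continuous_num hm hδ (h := fun _ _ => 1) continuous_const (B := 1)
    fun _ _ => by simp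

lemma Fam.continuous_tl (hF : Fam L F F1 F2 D) (hm : 0 ≤ m) (hδ : Continuous δ)
    (hc : Continuous (Function.uncurry h)) (hb : ∀ t y, |h t y| ≤ B) :
    Continuous (Function.uncurry (tl m δ F h)) :=
  (hF.continuous_num hm hδ hc hb).div (hF.continuous_nrm hm hδ) fun p =>
    (hF.nrm_pos hm hδ p.1 p.2).ne'

lemma Fam.abs_tl_le (hF : Fam L F F1 F2 D) (hm : 0 ≤ m) (hδ : Continuous δ) (t x : ℝ)
    (hc : Continuous (h t)) (hb : ∀ y, |h t y| ≤ B) : |tl m δ F h t x| ≤ B := by
  have hp := hF.nrm_pos hm hδ t x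
  have h1 := hF.integrable_mul hm hδ t x (u := fun _ => 1) continuous_const (B := 1) (by simp)
  simp only [mul_one] at h1
  rw [tl_eq, abs_div, abs_of_pos hp, div_le_iff₀ hp, nrm, ← integral_const_mul]
  refine abs_integral_le_integral_abs.trans (integral_mono
    (hF.integrable_mul hm hδ t x hc hb).abs (h1.const_mul B) fun g => ?_)
  show |wgt m (δ t) (F t) x g * h t _| ≤ B * _
  rw [abs_mul, abs_of_pos (show 0 < wgt m (δ t) (F t) x g from Real.exp_pos _), mul_comm B]
  exact mul_le_mul_of_nonneg_left (hb _) (Real.exp_pos _).le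

/-- The mean of one step differentiated in the field. -/
lemma Fam.hasDerivAt_num (hF : Fam L F F1 F2 D) (hm : 0 ≤ m) (hδ : Continuous δ) (t x : ℝ)
    (hd : ∀ y, HasDerivAt (h t) (h1 t y) y) (hc1 : Continuous (h1 t)) {B₁ : ℝ}
    (hb : ∀ y, |h t y| ≤ B) (hb1 : ∀ y, |h1 t y| ≤ B₁) :
    HasDerivAt (num m δ F h t) (num m δ F (fun s y => h1 s y + m * F1 s y * h s y) t x) x := by
  have hhc : Continuous (h t) := continuous_iff_continuousAt.2 fun y => (hd y).continuousAt
  have hc' : Continuous fun y => h1 t y + m * F1 t y * h t y :=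
    hc1.add ((continuous_const.mul (hF.at_time t).2.1).mul hhc)
  have hb' : ∀ y, |h1 t y + m * F1 t y * h t y| ≤ B₁ + m * L * B := fun y => by
    refine (abs_add_le _ _).trans (add_le_add (hb1 y) ?_)
    rw [abs_mul, abs_mul, abs_of_nonneg hm]
    exact mul_le_mul (mul_le_mul_of_nonneg_left (hF.b1 t y) hm) (hb y) (abs_nonneg _)
      (mul_nonneg hm hF.nn)
  obtain ⟨K, c, -, -, hw⟩ := hF.locBound hm hδ t x
  have hs : ∀ᶠ y in 𝓝 x, ∀ g, wgt m (δ t) (F t) y g ≤ K * Real.exp (c * |g|) :=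
    ((continuous_const.prodMk continuous_id).tendsto x).eventually hw
  exact (hasDerivAt_integral_of_dominated_loc_of_deriv_le (μ := gaussianReal 0 1) (x₀ := x)
    (F := fun y g => wgt m (δ t) (F t) y g * h t (y + Real.sqrt (δ t) * g))
    (F' := fun y g => wgt m (δ t) (F t) y g * (h1 t (y + Real.sqrt (δ t) * g) +
      m * F1 t (y + Real.sqrt (δ t) * g) * h t (y + Real.sqrt (δ t) * g)))
    (bound := fun g => (B₁ + m * L * B) * K * Real.exp (c * |g|)) hs
    (Eventually.of_forall fun y => (hF.cont_wgt_mul m _ t y hhc).aestronglyMeasurable)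
    (hF.integrable_mul hm hδ t x hhc hb)
    (hF.cont_wgt_mul m _ t x hc').aestronglyMeasurable
    (Eventually.of_forall fun g y hy => abs_wgt_mul hb' (hy g))
    ((Site.integrable_exp_abs c).const_mul _)
    (Eventually.of_forall fun g y _ => by
      have e1 := ((hF.d1 t _).comp_add_const y (Real.sqrt (δ t) * g)).const_mul m
      have e2 := (hd _).comp_add_const y (Real.sqrt (δ t) * g)
      refine (e1.exp.mul e2).congr_deriv ?_
      rw [wgt]; ring)).2

/-- The total derivative along a curve. -/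
lemma Fam.hasDerivAt_curve (hF : Fam L F F1 F2 D) {y : ℝ → ℝ} {y' t : ℝ} (ht : t ∈ J)
    (hy : HasDerivAt y y' t) :
    HasDerivAt (fun s => F s (y s)) (D t (y t) + F1 t (y t) * y') t := by
  have hev : ∀ᶠ v : ℝ × ℝ in 𝓝 (t, y t), v.1 ∈ J :=
    (continuous_fst.tendsto (t, y t)).eventually (isOpen_Ioo.mem_nhds ht)
  have hD : ContinuousAt (Function.uncurry D) (t, y t) :=
    hF.cD.continuousAt ((isOpen_Ioo.prod isOpen_univ).mem_nhds ⟨ht, mem_univ _⟩)
  have key := hasStrictFDerivAt_uncurry_coprod (𝕜 := ℝ) (u := (t, y t)) (f := F)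
    (f₁ := fun a b => ContinuousLinearMap.toSpanSingleton ℝ (D a b))
    (f₂ := fun a b => ContinuousLinearMap.toSpanSingleton ℝ (F1 a b))
    (hev.mono fun v hv => hasDerivAt_iff_hasFDerivAt.1 (hF.dt v.1 hv v.2))
    (Eventually.of_forall fun v => hasDerivAt_iff_hasFDerivAt.1 (hF.d1 v.1 v.2))
    ((ContinuousLinearMap.toSpanSingletonCLE.continuous.continuousAt).comp hD)
    ((ContinuousLinearMap.toSpanSingletonCLE.continuous.continuousAt).comp hF.c1.continuousAt)
  have h := key.hasFDerivAt.comp_hasDerivAt t ((hasDerivAt_id t).prodMk hy)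
  refine h.congr_deriv ?_
  simp [Function.HasUncurry.uncurry, mul_comm]

/-- One step differentiated in time. -/
lemma Fam.hasDerivAt_nrm (hF : Fam L F F1 F2 D) (hm : 0 ≤ m) (hi : Inc δ d) {t : ℝ} (ht : t ∈ J)
    (x : ℝ) :
    HasDerivAt (fun s => nrm m δ F s x)
      (m * num m δ F (fun s y => D s y + d / 2 * (F2 s y + m * F1 s y ^ 2)) t x) t := by
  set s' : ℝ → ℝ := fun s => d / (2 * Real.sqrt (δ s))
  obtain ⟨K, c, hK, hc0, hw⟩ := hF.locBound hm hi.cont t x
  set S := |s' t| + 1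
  have hS : ∀ᶠ s in 𝓝 t, |s' s| < S :=
    ((hi.speed.continuousAt (isOpen_Ioo.mem_nhds ht)).abs.tendsto).eventually_lt_const
      (lt_add_one _)
  have hs : ∀ᶠ s in 𝓝 t, s ∈ J ∧ |s' s| < S ∧
      ∀ g, wgt m (δ s) (F s) x g ≤ K * Real.exp (c * |g|) :=
    Filter.Eventually.and (isOpen_Ioo.mem_nhds ht) (hS.and
      (((continuous_id.prodMk continuous_const).tendsto t).eventually hw))
  have hDt : ∀ s ∈ J, Continuous (D s) := fun s hs =>
    hF.cD.comp_continuous (continuous_const.prodMk continuous_id) fun y => ⟨hs, mem_univ y⟩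
  have hS0 : 0 ≤ S := by positivity
  obtain ⟨-, hI⟩ := hasDerivAt_integral_of_dominated_loc_of_deriv_le (μ := gaussianReal 0 1)
    (x₀ := t) (F := fun s g => wgt m (δ s) (F s) x g)
    (F' := fun s g => m * (wgt m (δ s) (F s) x g * (D s (x + Real.sqrt (δ s) * g) +
      F1 s (x + Real.sqrt (δ s) * g) * (s' s * g))))
    (bound := fun g => m * (K * (L + L * S)) * Real.exp ((c + 1) * |g|)) hs
    (Eventually.of_forall fun s => (hF.cont_wgt m _ s x).aestronglyMeasurable)
    (by
      simpa using hF.integrable_mul hm hi.cont t x (u := fun _ => 1) continuous_const (B := 1)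
        (by simp))
    (by
      have h1 := (hF.at_time t).2.1
      have h2 := hDt t ht
      have h3 := hF.cont_wgt m (δ t) t x
      exact (Continuous.aestronglyMeasurable (by fun_prop)))
    (Eventually.of_forall fun g s ⟨hsJ, hsS, hsw⟩ => by
      rw [Real.norm_eq_abs, abs_mul, abs_of_nonneg hm, abs_mul,
        abs_of_pos (show 0 < wgt m (δ s) (F s) x g from Real.exp_pos _)]
      rw [mul_assoc m]
      refine mul_le_mul_of_nonneg_left ?_ hm
      rw [add_mul c, one_mul, Real.exp_add, mul_assoc K]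
      calc wgt m (δ s) (F s) x g * |D s _ + F1 s _ * (s' s * g)|
          ≤ K * Real.exp (c * |g|) * ((L + L * S) * Real.exp |g|) := by
            refine mul_le_mul (hsw g) ?_ (abs_nonneg _) (by positivity)
            have h1 : (1 : ℝ) ≤ Real.exp |g| := Real.one_le_exp (abs_nonneg _)
            have h2 : |F1 s (x + Real.sqrt (δ s) * g) * (s' s * g)| ≤ L * S * Real.exp |g| := by
              rw [abs_mul, abs_mul, mul_assoc]
              exact mul_le_mul (hF.b1 _ _)
                (mul_le_mul hsS.le (abs_le_exp_abs g) (abs_nonneg _) hS0)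
                (by positivity) hF.nn
            calc _ ≤ |D s (x + Real.sqrt (δ s) * g)| + _ := abs_add_le _ _
              _ ≤ L * Real.exp |g| + L * S * Real.exp |g| :=
                  add_le_add ((hF.bD s hsJ _).trans (le_mul_of_one_le_right hF.nn h1)) h2
              _ = _ := by ring
        _ = _ := by ring)
    ((Site.integrable_exp_abs (c + 1)).const_mul _)
    (Eventually.of_forall fun g s ⟨hsJ, _, _⟩ => by
      have hy : HasDerivAt (fun r => x + Real.sqrt (δ r) * g) (s' s * g) s :=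
        ((hi.root s hsJ).1.mul_const g).const_add x
      refine (((hF.hasDerivAt_curve hsJ hy).const_mul m).exp).congr_deriv ?_
      rw [wgt]; ring)
  refine hI.congr_deriv ?_
  -- integration by parts
  obtain ⟨K', c', hK', hc', hw'⟩ := hF.ptBound hm hi.cont t x
  set r := Real.sqrt (δ t)
  set φ : ℝ → ℝ := fun g => wgt m (δ t) (F t) x g * F1 t (x + r * g)
  set φ' : ℝ → ℝ := fun g =>
    r * (wgt m (δ t) (F t) x g * (F2 t (x + r * g) + m * F1 t (x + r * g) ^ 2))
  have hr : 0 ≤ r := Real.sqrt_nonneg _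
  have hφd : ∀ g, HasDerivAt φ (φ' g) g := fun g => by
    have hy : HasDerivAt (fun z => x + r * z) r g := by
      simpa using ((hasDerivAt_id g).const_mul r).const_add x
    refine ((((hF.d1 t _).comp g hy).const_mul m).exp.mul ((hF.d2 t _).comp g hy)).congr_deriv ?_
    simp only [Function.comp, φ', r, wgt]; ring
  have hsq : ∀ y, |F2 t y + m * F1 t y ^ 2| ≤ L + m * L ^ 2 := fun y => by
    refine (abs_add_le _ _).trans (add_le_add (hF.b2 t y) ?_)
    rw [abs_mul, abs_of_nonneg hm, abs_pow]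
    exact mul_le_mul_of_nonneg_left (pow_le_pow_left₀ (abs_nonneg _) (hF.b1 t y) 2) hm
  have hQc : Continuous fun y => F2 t y + m * F1 t y ^ 2 :=
    (hF.at_time t).2.2.add (continuous_const.mul ((hF.at_time t).2.1.pow 2))
  have hL := hF.nn
  have hibp : ∫ g, g * φ g ∂gaussianReal 0 1 = ∫ g, φ' g ∂gaussianReal 0 1 := by
    refine ibp hφd ((continuous_const.mul (hF.cont_wgt_mul m _ t x hQc)))
      (K := (L + r * (L + m * L ^ 2)) * K') (c := c') (fun g => ?_) (fun g => ?_)
    · refine (abs_wgt_mul (hF.b1 t) (hw' g)).trans ?_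
      gcongr
      exact le_add_of_nonneg_right (by positivity)
    · rw [show φ' g = r * (wgt m (δ t) (F t) x g * _) from rfl, abs_mul, abs_of_nonneg hr]
      refine (mul_le_mul_of_nonneg_left (abs_wgt_mul (u := fun y => F2 t y + m * F1 t y ^ 2) hsq
        (hw' g)) hr).trans ?_
      rw [← mul_assoc, ← mul_assoc]
      gcongr
      exact le_add_of_nonneg_left hL
  have iD := hF.integrable_mul hm hi.cont t x (hDt t ht) (hF.bD t ht)
  have iQ := hF.integrable_mul hm hi.cont t x hQc hsq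
  have iG : Integrable (fun g => g * φ g) (gaussianReal 0 1) := by
    refine ((Site.integrable_exp_abs (c' + 1)).const_mul (L * K')).mono'
      (continuous_id.mul (hF.cont_wgt_mul m _ t x (hF.at_time t).2.1)).aestronglyMeasurable
      (Eventually.of_forall fun g => ?_)
    rw [Real.norm_eq_abs, abs_mul, add_mul, one_mul, Real.exp_add, ← mul_assoc, mul_comm |g|]
    exact mul_le_mul (abs_wgt_mul (hF.b1 t) (hw' g)) (abs_le_exp_abs g) (abs_nonneg _)
      (by positivity)
  have e : ∀ g, m * (wgt m (δ t) (F t) x g * (D t (x + r * g) + F1 t (x + r * g) * (s' t * g))) =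
      m * (wgt m (δ t) (F t) x g * D t (x + r * g) + s' t * (g * φ g)) := fun g => by
    simp only [φ]; ring
  have e' : num m δ F (fun s y => D s y + d / 2 * (F2 s y + m * F1 s y ^ 2)) t x =
      ∫ g, (wgt m (δ t) (F t) x g * D t (x + r * g) +
        d / 2 * (wgt m (δ t) (F t) x g * (F2 t (x + r * g) + m * F1 t (x + r * g) ^ 2)))
        ∂gaussianReal 0 1 := by
    unfold num; congr 1; funext g; ring
  simp only [e]
  rw [e', integral_const_mul, integral_add iD (iG.const_mul _), integral_add iD (iQ.const_mul _),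
    integral_const_mul, integral_const_mul, hibp, integral_const_mul, ← mul_assoc (s' t),
    show s' t * r = d / 2 by rw [mul_comm]; exact (hi.root t ht).2]

/-- One step of the recursion keeps the class and gives the derivatives. -/
theorem Fam.step (hF : Fam L F F1 F2 D) (hm : 0 < m) (hi : Inc δ d) :
    ∃ L', Fam L' (fun t x => Parisi.layer m (δ t) (F t) x) (tl m δ F F1)
      (fun t x => tl m δ F (fun s y => F2 s y + m * F1 s y ^ 2) t x - m * tl m δ F F1 t x ^ 2)
      (tl m δ F fun s y => D s y + d / 2 * (F2 s y + m * F1 s y ^ 2)) := by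
  have hm0 := hm.le
  have hL := hF.nn
  set Q : ℝ → ℝ → ℝ := fun s y => F2 s y + m * F1 s y ^ 2
  have hQc : Continuous (Function.uncurry Q) := hF.c2.add (continuous_const.mul (hF.c1.pow 2))
  have hQb : ∀ t y, |Q t y| ≤ L + m * L ^ 2 := fun t y => by
    refine (abs_add_le _ _).trans (add_le_add (hF.b2 t y) ?_)
    rw [abs_mul, abs_of_pos hm, abs_pow]
    exact mul_le_mul_of_nonneg_left (pow_le_pow_left₀ (abs_nonneg _) (hF.b1 t y) 2) hm0
  have hEc : ContinuousOn (Function.uncurry fun s y => D s y + d / 2 * Q s y) (J ×ˢ univ) :=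
    hF.cD.add (continuousOn_const.mul hQc.continuousOn)
  have hEb : ∀ t ∈ J, ∀ y, |D t y + d / 2 * Q t y| ≤ L + |d / 2| * (L + m * L ^ 2) := fun t ht y =>
    (abs_add_le _ _).trans (add_le_add (hF.bD t ht y)
      ((abs_mul _ _).trans_le (mul_le_mul_of_nonneg_left (hQb t y) (abs_nonneg _))))
  have hp := hF.nrm_pos (m := m) hm0 hi.cont
  have hd1 : ∀ t x, HasDerivAt (nrm m δ F t) (m * num m δ F F1 t x) x := fun t x => by
    have h := hF.hasDerivAt_num (h := fun _ _ => 1) (h1 := fun _ _ => 0) hm0 hi.cont t x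
      (fun y => hasDerivAt_const y 1) continuous_const (B := 1) (B₁ := 0) (by simp) (by simp)
    rw [num_one] at h
    refine h.congr_deriv ?_
    rw [num, num, ← integral_const_mul]
    congr 1; funext g; ring
  refine ⟨L + 2 * m * L ^ 2 + |d / 2| * (L + m * L ^ 2), by positivity, ?_, hF.continuous_tl hm0
    hi.cont hF.c1 hF.b1, ?_, ?_, fun t x => ?_, fun t x => ?_, fun t ht x => ?_, fun t x => ?_,
    fun t x => ?_, fun t ht x => ?_⟩
  · exact continuous_const.mul ((hF.continuous_nrm hm0 hi.cont).log fun p => (hp p.1 p.2).ne')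
  · exact (hF.continuous_tl hm0 hi.cont hQc hQb).sub
      (continuous_const.mul ((hF.continuous_tl hm0 hi.cont hF.c1 hF.b1).pow 2))
  · intro p hp'
    exact ((hF.continuousAt_num hm0 hi.cont isOpen_Ioo hEc hEb hp'.1).div
      (hF.continuous_nrm hm0 hi.cont).continuousAt (hp p.1 p.2).ne').continuousWithinAt
  · refine (((hd1 t x).log (hp t x).ne').const_mul (1 / m)).congr_deriv ?_
    rw [tl_eq]; field_simp
  · have h := hF.hasDerivAt_num (h := F1) (h1 := F2) hm0 hi.cont t x (hF.d2 t) (hF.at_time t).2.2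
      (hF.b1 t) (hF.b2 t)
    refine ((h.div (hd1 t x) (hp t x).ne')).congr_deriv ?_
    have e : num m δ F (fun s y => F2 s y + m * F1 s y * F1 s y) t x = num m δ F Q t x := by
      simp only [num, Q]; congr 1; funext g; ring
    rw [e, tl_eq, tl_eq]
    field_simp [(hp t x).ne']
  · refine (((hF.hasDerivAt_nrm hm0 hi ht x).log (hp t x).ne').const_mul (1 / m)).congr_deriv ?_
    rw [tl_eq]
    generalize num m δ F (fun s y => D s y + d / 2 * (F2 s y + m * F1 s y ^ 2)) t x = a
    field_simp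
  · refine (hF.abs_tl_le hm0 hi.cont t x (hF.at_time t).2.1 (hF.b1 t)).trans ?_
    have : 0 ≤ |d / 2| * (L + m * L ^ 2) := by positivity
    nlinarith [mul_nonneg hm0 (sq_nonneg L)]
  · have h1 := hF.abs_tl_le (h := Q) hm0 hi.cont t x (hQc.uncurry_left t) (hQb t)
    have h2 := pow_le_pow_left₀ (abs_nonneg _)
      (hF.abs_tl_le hm0 hi.cont t x (hF.at_time t).2.1 (hF.b1 t)) 2
    rw [← abs_pow] at h2
    have h3 : |m * tl m δ F F1 t x ^ 2| ≤ m * L ^ 2 := by
      rw [abs_mul, abs_of_pos hm]; exact mul_le_mul_of_nonneg_left h2 hm0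
    have : 0 ≤ |d / 2| * (L + m * L ^ 2) := by positivity
    refine (abs_sub _ _).trans ?_
    linarith
  · refine (hF.abs_tl_le hm0 hi.cont t x (hEc.comp_continuous
      (continuous_const.prodMk continuous_id) fun y => ⟨ht, mem_univ y⟩) (hEb t ht)).trans ?_
    nlinarith [mul_nonneg hm0 (sq_nonneg L)]

end Vale.Agent.P157.Parisi.Full.Deriv
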